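import Vale.Agent.P307.R2.H541.Iso
import Mathlib.SetTheory.Cardinal.Regular

/-!
The trace isolation lemma: if small tuples of `X` reflect into `EX` over `E` and `E` is saturated,
then the types over `X` of the tuples of `E` which are isolated by tiny subsets of `X` are isolated
by tiny subsets of `EX`.
-/

universe u

open Set Cardinal Function

namespace Vale.Agent.P307.R2.H296

open Vale.Agent.P307.R2.H541

variable {C : Type u}

/-- Conjugate tuples. -/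
def Cj (G : Subgroup (Equiv.Perm C)) {ι : Type*} (r s : ι → C) : Prop :=
  ∃ g ∈ G, ∀ z, g (r z) = s z

namespace Cj

variable {G : Subgroup (Equiv.Perm C)} {ι ζ : Type*} {r s t : ι → C}

theorem refl (r : ι → C) : Cj G r r := ⟨1, G.one_mem, fun _ => rfl⟩

theorem symm (h : Cj G r s) : Cj G s r := by
  obtain ⟨g, hg, h⟩ := h
  exact ⟨g⁻¹, G.inv_mem hg, fun z => by rw [← h z]; exact PG.inv_ap g _⟩

theorem trans (h : Cj G r s) (h' : Cj G s t) : Cj G r t := by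
  obtain ⟨g, hg, h⟩ := h
  obtain ⟨g', hg', h'⟩ := h'
  exact ⟨g' * g, G.mul_mem hg' hg, fun z => by rw [Equiv.Perm.mul_apply, h z, h' z]⟩

theorem comp (h : Cj G r s) (f : ζ → ι) : Cj G (fun z => r (f z)) fun z => s (f z) := by
  obtain ⟨g, hg, h⟩ := h
  exact ⟨g, hg, fun z => h _⟩

theorem of_mem {g : Equiv.Perm C} (hg : g ∈ G) (r : ι → C) : Cj G r fun z => g (r z) :=
  ⟨g, hg, fun _ => rfl⟩

theorem iff_left (h : Cj G r s) : Cj G r t ↔ Cj G s t := ⟨fun h' => h.symm.trans h', h.trans⟩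

end Cj

/-- No order property, in the language of groups. -/
def NoOrd (G : Subgroup (Equiv.Perm C)) (τ : Cardinal.{u}) : Prop :=
  ∀ σ < τ, ∃ lam < τ, ∀ (W : Type u) [LinearOrder W] [WellFoundedLT W], lam ≤ #W →
    ∀ (ι ζ : Type u), #ι ≤ σ → #ζ ≤ σ → ∀ (a : W → ι → C) (b : W → ζ → C) (r : ι ⊕ ζ → C),
      (∀ x y, x < y → Cj G (Sum.elim (a x) (b y)) r) →
      (∀ x y, x < y → ¬ Cj G (Sum.elim (a y) (b x)) r) → False

/-- Transfinite recursion with choices. -/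
theorem exists_wf_seq {W : Type*} [LinearOrder W] [WellFoundedLT W] {β : Type*} [Nonempty β]
    (P : W → (W → β) → β → Prop)
    (hP : ∀ i F F', (∀ j < i, F j = F' j) → ∀ b, P i F b → P i F' b)
    (h : ∀ i F, (∀ j < i, P j F (F j)) → ∃ b, P i F b) : ∃ F : W → β, ∀ i, P i F (F i) := by
  classical
  let step : ∀ i : W, (∀ j, j < i → β) → β := fun i rec =>
    Classical.epsilon (P i fun j => if h : j < i then rec j h else Classical.arbitrary β)
  let F : W → β := (wellFounded_lt (α := W)).fix step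
  have hF : ∀ i, F i = step i fun j _ => F j := fun i => WellFounded.fix_eq _ _ _
  have hext : ∀ i, ∀ j < i, (fun j => if h : j < i then F j else Classical.arbitrary β) j = F j :=
    fun i j hj => by simp [hj]
  refine ⟨F, fun i => ?_⟩
  induction i using (wellFounded_lt (α := W)).induction with
  | _ i ih =>
    obtain ⟨b, hb⟩ := h i F ih
    have h1 : P i (fun j => if h : j < i then F j else Classical.arbitrary β) (F i) := by
      rw [hF i]
      exact Classical.epsilon_spec (p := P i fun j => if h : j < i then F j else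
        Classical.arbitrary β) ⟨b, hP i _ _ (fun j hj => (hext i j hj).symm) b hb⟩
    exact hP i _ _ (hext i) _ h1

/-- **Trace isolation.** -/
theorem tr_isol (M : PG C) {τ : Cardinal.{u}} (hτ : ℵ₀ ≤ τ) (hτM : τ ≤ M.χ) (hno : NoOrd M.G τ)
    {X E EX : Set C} (hEX : EX ⊆ E) (hEXX : EX ⊆ X)
    (hrefl : ∀ q ⊆ E, #q < τ → ∀ B ⊆ X, #B < τ →
      ∃ k ∈ M.G, (∀ x ∈ q, k x = x) ∧ ∀ b ∈ B, k b ∈ EX)
    (hsat : ∀ q ⊆ E, #q < τ → ∀ D : Set C, #D < τ →
      ∃ k ∈ M.G, (∀ x ∈ q, k x = x) ∧ ∀ d ∈ D, k d ∈ E)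
    {e B : Set C} (he : e ⊆ E) (hec : #e < τ) (hB : B ⊆ X) (hBc : #B < τ) (h : M.Isol B X e) :
    ∃ B' ⊆ EX, #B' < τ ∧ M.Isol B' X e := by
  classical
  by_contra hneg
  obtain ⟨lam, hlam, hord⟩ := hno (max (#e) (#B)) (max_lt hec hBc)
  let W : Type u := lam.ord.ToType
  have hW : #W = lam := by rw [mk_toType, card_ord]
  let β : Type u := (B → C) × (e → C)
  have : Nonempty β := ⟨(fun b => b, fun x => x)⟩
  let P : W → (W → β) → β → Prop := fun i F uv =>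
    (∀ b, uv.1 b ∈ EX) ∧ (∀ x, uv.2 x ∈ E) ∧
    (∃ k ∈ M.G, (∀ x : e, k x = uv.2 x) ∧ ∀ j < i, ∀ b, k ((F j).1 b) = (F j).1 b) ∧
    (∃ k ∈ M.G, (∀ b : B, k b = uv.1 b) ∧ (∀ x ∈ e, k x = x) ∧ ∀ j < i, ∀ x, k ((F j).2 x) =
      (F j).2 x) ∧
    ¬ Cj M.G (Sum.elim uv.1 uv.2) (Sum.elim (fun b : B => (b : C)) fun x : e => (x : C))
  obtain ⟨F, hF⟩ := exists_wf_seq (β := β) P (by
    rintro i F F' hFF ⟨u, v⟩ ⟨h1, h2, ⟨k, hk, h3, h4⟩, ⟨k', hk', h5, h6, h7⟩, h8⟩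
    refine ⟨h1, h2, ⟨k, hk, h3, fun j hj b => ?_⟩, ⟨k', hk', h5, h6, fun j hj x => ?_⟩, h8⟩
    · rw [← hFF j hj]
      exact h4 j hj b
    · rw [← hFF j hj]
      exact h7 j hj x) (by
    intro i F hF
    have hic : #{j : W // j < i} < τ := by
      exact (mk_subtype_le _).trans_lt (hW.trans_lt hlam)
    let c : Set C := range fun q : {j : W // j < i} × B => (F q.1).1 q.2
    let d : Set C := range fun q : {j : W // j < i} × e => (F q.1).2 q.2
    have hc : #c < τ := by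
      refine mk_range_le.trans_lt ?_
      rw [mk_prod, lift_id, lift_id]
      exact mul_lt_of_lt hτ hic hBc
    have hd : #d < τ := by
      refine mk_range_le.trans_lt ?_
      rw [mk_prod, lift_id, lift_id]
      exact mul_lt_of_lt hτ hic hec
    have hcEX : c ⊆ EX := by
      rintro _ ⟨q, rfl⟩
      exact (hF q.1.1 q.1.2).1 _
    have hdE : d ⊆ E := by
      rintro _ ⟨q, rfl⟩
      exact (hF q.1.1 q.1.2).2.1 _
    have hcI : ¬ M.Isol c X e := fun hI => hneg ⟨c, hcEX, hc, hI⟩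
    unfold PG.Isol at hcI
    push Not at hcI
    obtain ⟨g, hg, hgc, A, hA, hAc, hgA⟩ := hcI
    obtain ⟨k, hk, hkq, hkB⟩ := hrefl (e ∪ c ∪ d) (union_subset (union_subset he
      (hcEX.trans hEX)) hdE) ((mk_union_le _ _).trans_lt (add_lt_of_lt hτ
      ((mk_union_le _ _).trans_lt (add_lt_of_lt hτ hec hc)) hd)) B hB hBc
    have hkBE : k '' B ⊆ E := by
      rintro _ ⟨b, hb, rfl⟩
      exact hEX (hkB b hb)
    obtain ⟨k', hk', hk'q, hk'D⟩ := hsat (c ∪ k '' B) (union_subset (hcEX.trans hEX) hkBE)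
      ((mk_union_le _ _).trans_lt (add_lt_of_lt hτ hc (mk_image_le.trans_lt hBc)))
      ((fun x => k (g x)) '' e) (mk_image_le.trans_lt hec)
    refine ⟨(fun b => k b, fun x => k' (k (g x))), fun b => hkB b b.2, fun x => hk'D _
      ⟨x, x.2, rfl⟩, ⟨k' * k * g, M.G.mul_mem (M.G.mul_mem hk' hk) hg, fun x => rfl,
      fun j hj b => ?_⟩, ⟨k, hk, fun b => rfl, fun x hx => hkq x (Or.inl (Or.inl hx)),
      fun j hj x => hkq _ (Or.inr ⟨(⟨j, hj⟩, x), rfl⟩)⟩, ?_⟩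
    · have h1 : (F j).1 b ∈ c := ⟨(⟨j, hj⟩, b), rfl⟩
      rw [Equiv.Perm.mul_apply, Equiv.Perm.mul_apply, hgc _ h1, hkq _ (Or.inl (Or.inr h1)),
        hk'q _ (Or.inl h1)]
    · rintro ⟨t, ht, htt⟩
      obtain ⟨s, hs, hsA, hse⟩ := h (t * k' * k)⁻¹ (M.G.inv_mem (M.G.mul_mem
        (M.G.mul_mem ht hk') hk)) (by
        intro b hb
        refine PG.fix_inv ?_
        rw [Equiv.Perm.mul_apply, Equiv.Perm.mul_apply, hk'q _ (Or.inr ⟨b, hb, rfl⟩)]
        exact htt (Sum.inl ⟨b, hb⟩)) A hA hAc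
      obtain ⟨x, hx, hx'⟩ := hgA s hs hsA
      apply hx'
      rw [hse x hx, Equiv.Perm.inv_eq_iff_eq, Equiv.Perm.mul_apply, Equiv.Perm.mul_apply]
      exact (htt (Sum.inr ⟨x, hx⟩)).symm)
  -- the order property
  refine hord W hW.ge B e (le_max_right _ _) (le_max_left _ _) (fun i => (F i).1)
    (fun i => (F i).2) (Sum.elim (fun b : B => (b : C)) fun x : e => (x : C)) ?_ ?_
  · intro x y hxy
    obtain ⟨-, -, ⟨k, hk, hk1, hk2⟩, -, -⟩ := hF y
    obtain ⟨-, -, -, ⟨t, ht, ht1, ht2, -⟩, -⟩ := hF x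
    refine ⟨t⁻¹ * k⁻¹, M.G.mul_mem (M.G.inv_mem ht) (M.G.inv_mem hk), ?_⟩
    rintro (b | z)
    · rw [Equiv.Perm.mul_apply]
      change t⁻¹ (k⁻¹ ((F x).1 b)) = b
      rw [PG.fix_inv (hk2 x hxy b), ← ht1 b]
      exact PG.inv_ap t _
    · rw [Equiv.Perm.mul_apply]
      change t⁻¹ (k⁻¹ ((F y).2 z)) = z
      rw [← hk1 z, PG.inv_ap]
      exact PG.fix_inv (ht2 z z.2)
  · rintro x y hxy ⟨s, hs, hs'⟩
    obtain ⟨hx1, -, -, ⟨t, ht, ht1, ht2, -⟩, hx5⟩ := hF x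
    obtain ⟨-, -, -, ⟨k, hk, hk1, -, hk3⟩, -⟩ := hF y
    -- `s * k` fixes `B` and maps `e_x` to `e`
    obtain ⟨h', hh', hA', he'⟩ := h (s * k)⁻¹ (M.G.inv_mem (M.G.mul_mem hs hk)) (by
      intro b hb
      refine PG.fix_inv ?_
      rw [Equiv.Perm.mul_apply, hk1 ⟨b, hb⟩]
      exact hs' (Sum.inl ⟨b, hb⟩)) (range (F x).1) (by
        rintro _ ⟨b, rfl⟩
        exact hEXX (hx1 b)) (mk_range_le.trans_lt (hBc.trans_le hτM))
    apply hx5
    refine ⟨t⁻¹ * h'⁻¹, M.G.mul_mem (M.G.inv_mem ht) (M.G.inv_mem hh'), ?_⟩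
    rintro (b | z)
    · rw [Equiv.Perm.mul_apply]
      change t⁻¹ (h'⁻¹ ((F x).1 b)) = b
      rw [PG.fix_inv (hA' _ ⟨b, rfl⟩), ← ht1 b]
      exact PG.inv_ap t _
    · rw [Equiv.Perm.mul_apply]
      change t⁻¹ (h'⁻¹ ((F x).2 z)) = z
      have h1 : h' z = (F x).2 z := by
        rw [he' z z.2, Equiv.Perm.inv_eq_iff_eq, Equiv.Perm.mul_apply, hk3 x hxy z]
        exact (hs' (Sum.inr z)).symm
      rw [← h1, PG.inv_ap]
      exact PG.fix_inv (ht2 z z.2)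

end Vale.Agent.P307.R2.H296
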