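import Vale.Agent.P307.R2.H541.Calc
import Vale.Agent.P307.R2.H296.TrIso

/-!
There is no order property in the group of the saturated member.
-/

set_option linter.unusedSectionVars false

universe u

open FirstOrder Cardinal Set

namespace Vale.Agent.P307.R2.H296

open Vale.Agent.P307 Vale.Agent.P307.H304 Vale.Agent.P307.R2.H287 Vale.Agent.P307.R2.H1
  Vale.Agent.P307.R2.H971 Vale.Agent.P307.R2.H804 Vale.Agent.P307.R2.H541
  Language.Structure Language.Substructure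

variable {L : Language.{u, u}} {K : AEC L} {ℓ θ : Cardinal.{u}}
  {κf α : Cardinal.{u} → Cardinal.{u}} {C : Type u} [L.Structure C]

/-- Conjugate tuples have the same types. -/
theorem eqS_of_cj {ν : Cardinal.{u}} (hν : ℵ₀ ≤ ν) {ι : Type u} (hι : #ι ≤ ν) {r s : ι → C}
    (h : Cj (H541.autG L C) r s) : EqS L ν r s := by
  obtain ⟨g, ⟨e, he⟩, hg⟩ := h
  have h1 := H804.EqS.equiv hν hι e r
  have h2 : (fun i => e (r i)) = s := funext fun i => (he _).trans (hg i)
  rwa [h2] at h1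

section

variable (h₀ : BasePt K ℓ κf α θ) (hK : K.IsLS ℓ)
  (hunb : ∀ ν, ν < κf ν ∧ K.CategoricalIn (κf ν)) (hst : Stab K ℓ α (H287.thr κf))
  (hCm : K.mem C) (hs : Sat K θ C) (hCc : #C = Order.succ θ)

include h₀ hK hunb hst hCm hs hCc

/-- Small tuples: conjugate means the same type. -/
theorem cj_iff {σ : Cardinal.{u}} (hσ : ℓ ≤ σ) (hσθ : σ < θ) {ι : Type u} (hι : #ι ≤ σ)
    (r s : ι → C) : Cj (H541.autG L C) r s ↔ EqS L (α σ) r s := by
  have h1 : σ ≤ α σ := (hst σ hσ).1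
  exact ⟨eqS_of_cj ((hK.1.trans hσ).trans h1) (hι.trans h1), fun h =>
    exists_mem_autG h₀ hK hunb hst hCm hs hCc hσ hσθ hι r s h⟩

/-- **No order property** below a base point. -/
theorem noOrd {τ : Cardinal.{u}} (hτ : BasePt K ℓ κf α τ) (hτθ : τ ≤ θ) :
    NoOrd (H541.autG L C) τ := by
  intro σ hσ
  let s : Cardinal.{u} := max ℓ σ
  have hsτ : s < τ := max_lt hτ.pt.lt hσ
  have hℓs : ℓ ≤ s := le_max_left _ _
  have hσs : σ ≤ s := le_max_right _ _
  have hs1 : s ≤ α s := (hst s hℓs).1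
  have hν : α s < τ := hτ.al s hsτ
  have hlam : opB κf (α s) < τ := (opB_le_limB κf _).trans_lt (hτ.pt.lim _ hν)
  refine ⟨opB κf (α s), hlam, ?_⟩
  intro W _ _ hW ι ζ hι hζ a b r h1 h2
  have hs0 : ℵ₀ ≤ s := hK.1.trans hℓs
  have hsum : #(ι ⊕ ζ) ≤ s := by
    rw [mk_sum, lift_id, lift_id]
    exact add_le_of_le hs0 (hι.trans hσs) (hζ.trans hσs)
  have hiff := fun r' s' => cj_iff h₀ hK hunb hst hCm hs hCc hℓs (hsτ.trans_le hτθ) hsum r' s'
  exact no_order hK hunb (hℓs.trans hs1) hCm ((hlam.le.trans hτθ).trans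
    ((Order.le_succ θ).trans hCc.ge)) hW ((hι.trans hσs).trans hs1) ((hζ.trans hσs).trans hs1)
    a b r (fun x y hxy => (hiff _ _).1 (h1 x y hxy)) fun x y hxy h3 =>
    h2 x y hxy ((hiff _ _).2 h3)

end

end Vale.Agent.P307.R2.H296
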